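import Vale.Agent.P281.H64.TS.Spec2
import Vale.Agent.P281.H747.TS.Lat
import Vale.Agent.P281.H125.TS.C1

/-!
# P281, project T-S: D5, two markings of the same surface
-/

open Set Filter Metric MeasureTheory Vale.Agent.P281.H713 Vale.Agent.P272.K
open scoped Topology ContDiff ComplexConjugate

noncomputable section

namespace Vale.Agent.P281.H191.TS

open Vale.Agent.P281.H64.TK Vale.Agent.P281.H64.TK.TS Vale.Agent.P281.H747.TS

section
variable {d : ℕ} {E Γ : Type} [TopologicalSpace E] [Group Γ] [MulAction Γ E]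
  {S : Sheets d E Γ} {n : ℕ}

/-- The coordinates in another marking. -/
theorem cl_change (M M' : Mark2 S n) (a : Fin n → Fin n → ℤ)
    (ha : ∀ k j, M'.cl (M.b k) j = (a k j : ℂ)) {α : Fin S.N → Cm d → L2 d} (hα : Cl2 S α) :
    M'.cl α = ((Matrix.of fun j k => a k j).map (Int.cast : ℤ → ℂ)).mulVec (M.cl α) := by
  have hγ : Cl2 S (fun i z => ∑ k, M.cl α k • M.b k i z) :=
    cl2_sum Finset.univ (M.cl α) fun k _ => M.closed k
  have h1 : M'.cl (fun i z => α i z - ∑ k, M.cl α k • M.b k i z) = 0 :=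
    cl_of_exact M' (cl2_sub hα hγ) (M.ex α hα)
  have h2 := cl_add M' (cl2_sub hα hγ) hγ
  rw [h1, zero_add, cl_sum M' Finset.univ (M.cl α) fun k _ => M.closed k] at h2
  have h3 : M'.cl (fun i z => (α i z - ∑ k, M.cl α k • M.b k i z) +
      ∑ k, M.cl α k • M.b k i z) = M'.cl α :=
    (cl_congr M' hα fun i z _ => (sub_add_cancel (α i z) _).symm).symm
  rw [← h3, h2]
  funext j
  rw [Finset.sum_apply]
  show ∑ k, (M.cl α k • M'.cl (M.b k)) j = ∑ k, ((a k j : ℤ) : ℂ) * M.cl α k
  refine Finset.sum_congr rfl fun k _ => ?_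
  rw [Pi.smul_apply, ha, smul_eq_mul, mul_comm]

end

/-- **D5** from C1. -/
theorem twoMark (hSt : StokesStmt) : TwoMarkStmt := by
  intro E Γ _ _ _ _ _ _ S n M M'
  choose a ha using fun k j => M'.intcl (M.b k) (M.closed k) (M.int k) j
  choose a' ha' using fun k j => M.intcl (M'.b k) (M'.closed k) (M'.int k) j
  refine ⟨Matrix.of fun j k => a k j, ?_, fun α hα => cl_change M M' a ha hα, ?_⟩
  · refine Matrix.isUnit_det_of_left_inverse (B := Matrix.of fun j k => a' k j) ?_
    ext i k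
    have h1 := cl_change M' M a' ha' (M.closed k)
    rw [cl_b] at h1
    have h2 := congrFun h1 i
    have h3 : ((Matrix.of fun j k => a' k j).map (Int.cast : ℤ → ℂ)).mulVec (M'.cl (M.b k)) i =
        ((∑ j, a' j i * a k j : ℤ) : ℂ) := by
      show ∑ j, ((a' j i : ℤ) : ℂ) * M'.cl (M.b k) j = _
      push_cast
      exact Finset.sum_congr rfl fun j _ => by rw [ha]
    rw [h3] at h2
    rw [Matrix.mul_apply]
    show ∑ j, a' j i * a k j = (1 : Matrix (Fin n) (Fin n) ℤ) i k
    rw [Matrix.one_apply]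
    have h4 : (Pi.single k (1 : ℂ) : Fin n → ℂ) i = ((if i = k then (1 : ℤ) else 0 : ℤ) : ℂ) := by
      by_cases h : i = k
      · subst h; simp
      · rw [Pi.single_eq_of_ne h, if_neg h, Int.cast_zero]
    rw [h4] at h2
    exact (Int.cast_injective h2).symm
  · ext k l
    have hcl : ∀ k, M'.cl (M.b k) = fun j => (((a k j : ℤ) : ℝ) : ℂ) := fun k => by
      funext j
      rw [ha]
      push_cast
      rfl
    have h1 : wint S (M.b k) (M.b l) = bil (Bm M') (M'.cl (M.b k)) (M'.cl (M.b l)) :=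
      wint_cl hSt M' (fun _ _ => rfl) (M.closed k) (M.closed l)
    rw [hcl k, hcl l, bil_re] at h1
    have h2 : Bm M k l = (fun j => ((a k j : ℤ) : ℝ)) ⬝ᵥ
        (Bm M').mulVec (fun j => ((a l j : ℤ) : ℝ)) := by
      show (wint S (M.b k) (M.b l)).re = _
      rw [h1, Complex.ofReal_re]
    rw [h2, Matrix.mul_apply]
    simp only [Matrix.mul_apply, Matrix.transpose_apply, Matrix.map_apply, Matrix.of_apply,
      dotProduct, Matrix.mulVec, Finset.sum_mul, Finset.mul_sum]
    rw [Finset.sum_comm]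
    refine Finset.sum_congr rfl fun i _ => Finset.sum_congr rfl fun j _ => ?_
    ring

/-- **D5** -/
theorem twoMarkStmt : TwoMarkStmt := twoMark H125.TS.c1

end Vale.Agent.P281.H191.TS
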