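import Vale.Agent.P281.H64.TS.Spec2

/-!
# P281, project T-S: D1a, the signature
-/

open Matrix

namespace Vale.Agent.P281.H191.TS

open Vale.Agent.P281.H64.TK.TS

theorem sig_le {n : ℕ} (B : Matrix (Fin n) (Fin n) ℝ) (P P' : Submodule ℝ (Fin n → ℝ))
    (hP : ∀ x ∈ P, x ≠ 0 → 0 < x ⬝ᵥ B.mulVec x)
    (hP' : ∀ x, x ≠ 0 → (∀ y ∈ P', y ⬝ᵥ B.mulVec x = 0) → x ⬝ᵥ B.mulVec x < 0) :
    Module.finrank ℝ P ≤ Module.finrank ℝ P' := by
  let φ : P →ₗ[ℝ] Module.Dual ℝ P' :=
    { toFun := fun x =>
        { toFun := fun y => y.1 ⬝ᵥ B.mulVec x.1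
          map_add' := fun a b => by rw [Submodule.coe_add, add_dotProduct]
          map_smul' := fun c a => by rw [Submodule.coe_smul, smul_dotProduct, RingHom.id_apply] }
      map_add' := fun a b => by
        ext y
        simp only [LinearMap.coe_mk, AddHom.coe_mk, LinearMap.add_apply]
        rw [Submodule.coe_add, mulVec_add, dotProduct_add]
      map_smul' := fun c a => by
        ext y
        simp only [LinearMap.coe_mk, AddHom.coe_mk, LinearMap.smul_apply, RingHom.id_apply]
        rw [Submodule.coe_smul, mulVec_smul, dotProduct_smul] }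
  have hinj : Function.Injective φ := by
    rw [injective_iff_map_eq_zero]
    intro x hx
    by_contra hne
    have h1 : x.1 ≠ 0 := fun h => hne (Subtype.ext h)
    have h2 := hP x.1 x.2 h1
    have h3 := hP' x.1 h1 (fun y hy => LinearMap.congr_fun hx ⟨y, hy⟩)
    exact lt_asymm h2 h3
  exact (LinearMap.finrank_le_finrank_of_injective hinj).trans Subspace.dual_finrank_eq.le

/-- **D1a** -/
theorem sig : SigStmt := fun _ B _ P P' h1 h2 h3 h4 =>
  le_antisymm (sig_le B P P' h1 h4) (sig_le B P' P h2 h3)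

end Vale.Agent.P281.H191.TS
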